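import Mathlib
import Vale.Agent.Lib.P308.Claw

namespace Vale.Agent.Results.P308.A_claw

open Finset Vale.Agent.Lib.P308

open Classical in
/-- Near-perfect versus perfect matchings in connected claw-free graphs of small diameter, and in
connected graphs of independence number at most two. -/
theorem result {V : Type*} [Fintype V] [DecidableEq V] (G : SimpleGraph V) (hc : G.Connected) :
    (∀ Δ D : ℕ, IsClawFree G → (∀ w, (univ.filter (G.Adj w)).card ≤ Δ) → 1 ≤ D →
        (∀ a b, G.dist a b ≤ D) →
        (nearMates G).card ≤ Fintype.card V * ((Δ + 1) ^ (D - 1) * (perfectMates G).card)) ∧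
    (AlphaLeTwo G → (nearMates G).card ≤ Fintype.card V ^ 3 * (perfectMates G).card) :=
  ⟨fun _ _ hclaw hΔ hD1 hD => near_le G hc hclaw hΔ hD1 hD, fun h => near_le_alpha G hc h⟩

end Vale.Agent.Results.P308.A_claw
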